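import Vale.Agent.Borsuk.Final

/-!
# P052: Borsuk's conjecture fails in dimension 63
-/

namespace Vale.Agent.Results.P052.BorsukSixtyThree

/-- The set `Y` is a union of `k` sets, each of diameter strictly smaller than the diameter
of `Y`. -/
def SplitsInto {d : ℕ} (Y : Set (EuclideanSpace ℝ (Fin d))) (k : ℕ) : Prop :=
  ∃ P : Fin k → Set (EuclideanSpace ℝ (Fin d)),
    Y = ⋃ i, P i ∧ ∀ i, Metric.diam (P i) < Metric.diam Y

/-- Borsuk's conjecture in dimension `d`: every bounded set of positive diameter in the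
`d`-dimensional Euclidean space is a union of `d + 1` sets of strictly smaller diameter. -/
def BorsukConjecture (d : ℕ) : Prop :=
  ∀ Y : Set (EuclideanSpace ℝ (Fin d)), Bornology.IsBounded Y → 0 < Metric.diam Y →
    SplitsInto Y (d + 1)

/-- Borsuk's conjecture fails in dimension `63`. -/
theorem result : ¬ BorsukConjecture 63 := by
  intro h
  obtain ⟨Y, hfin, hpos, hY⟩ := Vale.Agent.Borsuk.counterexample
  obtain ⟨P, hP, hlt⟩ := h Y hfin.isBounded hpos
  obtain ⟨i, hi⟩ := hY P hP
  exact absurd (hlt i) (not_lt.2 hi)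

end Vale.Agent.Results.P052.BorsukSixtyThree
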